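import Mathlib
import Crest.Prelude.Def_Polar

-- ▼ part R071/Cover
section

set_option autoImplicit false

namespace Crest.Agent.R071

open Finset

open Classical in
theorem greedy_aux {X P : Type*} [Fintype X] [Nonempty P] (m : X → ℝ) (hm : ∀ x, 0 ≤ m x)
    (B : P → X → Prop) (ε : ℝ) (j : ℕ) :
    ∃ R : Fin j → P, (∀ ρ, ∑ x with (B ρ x ∧ ∀ l, ¬ B (R l) x), m x ≤ ε) ∨
      (j * ε ≤ ∑ x with (∃ l, B (R l) x), m x) := by
  induction j with
  | zero => exact ⟨Fin.elim0, Or.inr (by simp)⟩
  | succ j ih =>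
    obtain ⟨R, h⟩ := ih
    by_cases hR : ∀ ρ, ∑ x with (B ρ x ∧ ∀ l, ¬ B (R l) x), m x ≤ ε
    · refine ⟨Fin.cons (Classical.arbitrary P) R, Or.inl fun ρ => le_trans ?_ (hR ρ)⟩
      apply Finset.sum_le_sum_of_subset_of_nonneg
      · intro x hx
        simp only [mem_filter, mem_univ, true_and] at hx ⊢
        exact ⟨hx.1, fun l => by simpa using hx.2 l.succ⟩
      · intro x _ _
        exact hm x
    · have h' := h.resolve_left hR
      push Not at hR
      obtain ⟨ρ, hρ⟩ := hR
      refine ⟨Fin.cons ρ R, Or.inr ?_⟩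
      have key : ∑ x with (∃ l, B ((Fin.cons ρ R : Fin (j+1) → P) l) x), m x
          = ∑ x with (B ρ x ∧ ∀ l, ¬ B (R l) x), m x + ∑ x with (∃ l, B (R l) x), m x := by
        rw [← Finset.sum_union]
        · apply Finset.sum_congr _ (fun _ _ => rfl)
          ext x
          simp only [mem_filter, mem_univ, true_and, mem_union, Fin.exists_fin_succ, Fin.cons_zero,
            Fin.cons_succ]
          constructor
          · rintro (h1 | h1)
            · by_cases h2 : ∃ l, B (R l) x
              · exact Or.inr h2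
              · push Not at h2
                exact Or.inl ⟨h1, h2⟩
            · exact Or.inr h1
          · rintro (h1 | h1)
            · exact Or.inl h1.1
            · exact Or.inr h1
        · rw [Finset.disjoint_left]
          intro x hx hx'
          simp only [mem_filter, mem_univ, true_and] at hx hx'
          obtain ⟨l, hl⟩ := hx'
          exact hx.2 l hl
      rw [key]
      push_cast
      linarith

open Classical in
theorem greedy {X P : Type*} [Fintype X] [Nonempty P] (m : X → ℝ) (hm : ∀ x, 0 ≤ m x)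
    (hm1 : ∑ x, m x ≤ 1) (B : P → X → Prop) (k : ℕ) (hk : 0 < k) :
    ∃ R : Fin k → P, ∀ ρ, ∑ x with (B ρ x ∧ ∀ l, ¬ B (R l) x), m x ≤ 1 / k := by
  obtain ⟨R, h | h⟩ := greedy_aux m hm B (1 / k) k
  · exact ⟨R, h⟩
  · refine ⟨R, fun ρ => ?_⟩
    have h1 : (k : ℝ) * (1 / k) = 1 := by
      field_simp
    rw [h1] at h
    have h2 : ∑ x with (B ρ x ∧ ∀ l, ¬ B (R l) x), m x + ∑ x with (∃ l, B (R l) x), m x
        ≤ ∑ x, m x := by
      rw [← Finset.sum_union]
      · apply Finset.sum_le_sum_of_subset_of_nonneg (Finset.subset_univ _)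
        intro x _ _
        exact hm x
      · rw [Finset.disjoint_left]
        intro x hx hx'
        simp only [mem_filter, mem_univ, true_and] at hx hx'
        obtain ⟨l, hl⟩ := hx'
        exact hx.2 l hl
    have h3 : (0:ℝ) ≤ 1 / k := by positivity
    linarith

theorem card_shift {J : ℕ} {S T : Finset ℕ} (hS : S ⊆ range J)
    (h : ∀ i ∈ S, i + 1 < J → i + 1 ∈ T) : #S ≤ #T + 1 := by
  have h1 : #(S.erase (J - 1)) ≤ #T := by
    apply Finset.card_le_card_of_injOn (fun i => i + 1)
    · intro i hi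
      have hi' := Finset.mem_erase.1 (Finset.mem_coe.1 hi)
      have hi2 := Finset.mem_range.1 (hS hi'.2)
      apply Finset.mem_coe.2
      apply h i hi'.2
      omega
    · intro a _ b _ hab
      simpa using hab
  have h2 := Finset.pred_card_le_card_erase (s := S) (a := J - 1)
  omega

theorem card_shift_abs {J : ℕ} {S T : Finset ℕ} (hS : S ⊆ range J) (hT : T ⊆ range J)
    (h : ∀ i ∈ S, i + 1 < J → i + 1 ∈ T) (h' : ∀ i ∈ T, i + 1 < J → i + 1 ∈ S) :
    |(#S : ℝ) / J - (#T : ℝ) / J| ≤ 1 / J := by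
  have h1 : (#S : ℝ) ≤ #T + 1 := by exact_mod_cast card_shift hS h
  have h2 : (#T : ℝ) ≤ #S + 1 := by exact_mod_cast card_shift hT h'
  rw [← sub_div, abs_div, abs_of_nonneg (Nat.cast_nonneg J : (0:ℝ) ≤ J)]
  apply div_le_div_of_nonneg_right _ (Nat.cast_nonneg J)
  rw [abs_le]
  constructor <;> linarith

open Classical in
theorem exists_data {X Γ R P I : Type*} [Fintype X] [Fintype Γ] [Fintype I] [Nonempty I]
    [Nonempty P] (J k : ℕ) (hJ : 0 < J) (hk : J * J ≤ k)
    (g : X → Γ) (bad : I → X → Prop) (near : ℕ → R → X → Prop)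
    (nearV : I → ℕ → P → X → Prop)
    (res : I → R → P) (Q : I → Γ → ℕ → R → P → Prop)
    (hbad : ∀ x, J * #{j | bad j x} ≤ Fintype.card I)
    (ha : ∀ j i r x, near i r x → nearV j i (res j r) x)
    (hb : ∀ j i₀ i r ρ x, ¬ bad j x → i₀ ≤ i → nearV j i (res j r) x → nearV j i₀ ρ x →
      Q j (g x) (i+1) r ρ)
    (hc : ∀ j i₀ i r ρ x, ¬ bad j x → i₀ ≤ i → Q j (g x) i r ρ → nearV j i₀ ρ x →
      near (i+1) r x)
    (y : X → ℝ) (hy : ∑ x, |y x| ≤ 1) :
    ∃ (j : I) (ρ : Fin J → Fin k → P) (w : Γ × Fin J × Fin k → ℝ), (∀ c, |w c| ≤ 1) ∧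
      ∀ r, |∑ x, y x * ((#{i ∈ range J | near i r x} : ℝ) / J) -
        ∑ c, w c * ((#{i ∈ range J | (c.2.1 : ℕ) ≤ i ∧ Q j c.1 i r (ρ c.2.1 c.2.2)} : ℝ) / J)|
          ≤ 3 / J := by
  have hJ' : (0:ℝ) < J := by exact_mod_cast hJ
  have hk0 : 0 < k := lt_of_lt_of_le (Nat.mul_pos hJ hJ) hk
  have hk' : (0:ℝ) < k := by exact_mod_cast hk0
  -- choice of j
  obtain ⟨j, hj⟩ : ∃ j : I, ∑ x with bad j x, |y x| ≤ 1 / J := by
    by_contra hcon
    push Not at hcon
    have hI : 0 < Fintype.card I := Fintype.card_pos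
    have h1 : ∑ j : I, ∑ x with bad j x, |y x| ≤ (Fintype.card I : ℝ) / J := by
      calc ∑ j : I, ∑ x with bad j x, |y x| = ∑ j : I, ∑ x, if bad j x then |y x| else 0 := by
            apply Finset.sum_congr rfl
            intro j _
            rw [Finset.sum_filter]
        _ = ∑ x, ∑ j : I, if bad j x then |y x| else 0 := Finset.sum_comm
        _ = ∑ x, (#{j | bad j x} : ℝ) * |y x| := by
            apply Finset.sum_congr rfl
            intro x _
            rw [← Finset.sum_filter, Finset.sum_const, nsmul_eq_mul]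
        _ ≤ ∑ x, ((Fintype.card I : ℝ) / J) * |y x| := by
            apply Finset.sum_le_sum
            intro x _
            apply mul_le_mul_of_nonneg_right _ (abs_nonneg _)
            rw [le_div_iff₀ hJ', mul_comm]
            exact_mod_cast hbad x
        _ = ((Fintype.card I : ℝ) / J) * ∑ x, |y x| := by rw [Finset.mul_sum]
        _ ≤ ((Fintype.card I : ℝ) / J) * 1 := by
            apply mul_le_mul_of_nonneg_left hy
            positivity
        _ = _ := mul_one _
    have h2 : (Fintype.card I : ℝ) / J < ∑ j : I, ∑ x with bad j x, |y x| := by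
      calc (Fintype.card I : ℝ) / J = ∑ j : I, (1:ℝ) / J := by
            rw [Finset.sum_const, nsmul_eq_mul, Finset.card_univ]; ring
        _ < _ := Finset.sum_lt_sum_of_nonempty Finset.univ_nonempty (fun j _ => hcon j)
    linarith
  -- choice of representatives
  have hgreedy : ∀ i : Fin J, ∃ R : Fin k → P, ∀ ρ,
      ∑ x with (nearV j i ρ x ∧ ∀ l, ¬ nearV j i (R l) x), |y x| ≤ 1 / k := fun i =>
    greedy (fun x => |y x|) (fun x => abs_nonneg _) hy (fun ρ x => nearV j i ρ x) k hk0
  choose ρ hρ using hgreedy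
  -- cell function
  have hcell : ∀ x, ∃ c : Option (Fin J × Fin k),
      (c = none → bad j x ∨ ∀ (i : Fin J) (l : Fin k), ¬ nearV j i (ρ i l) x) ∧
      (∀ (i : Fin J) (l : Fin k), c = some (i, l) → ¬ bad j x ∧ nearV j i (ρ i l) x ∧
        ∀ (i' : Fin J) (l' : Fin k), nearV j i' (ρ i' l') x → i ≤ i') := by
    intro x
    by_cases hx : bad j x ∨ ∀ (i : Fin J) (l : Fin k), ¬ nearV j i (ρ i l) x
    · exact ⟨none, fun _ => hx, fun i l h => by simp at h⟩
    · push Not at hx
      obtain ⟨hx1, hx2⟩ := hx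
      obtain ⟨i, hi, hmin⟩ := WellFounded.has_min (wellFounded_lt (α := Fin J))
        {i : Fin J | ∃ l, nearV j i (ρ i l) x} hx2
      obtain ⟨l, hl⟩ := hi
      refine ⟨some (i, l), fun h => by simp at h, ?_⟩
      intro i1 l1 h
      simp only [Option.some.injEq, Prod.mk.injEq] at h
      obtain ⟨rfl, rfl⟩ := h
      refine ⟨hx1, hl, fun i' l' h' => ?_⟩
      exact not_lt.1 (hmin i' ⟨l', h'⟩)
  choose cell hcell1 hcell2 using hcell
  set w : Γ × Fin J × Fin k → ℝ := fun c => ∑ x with (g x = c.1 ∧ cell x = some c.2), y x with hw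
  refine ⟨j, ρ, w, ?_, ?_⟩
  · intro c
    calc |w c| ≤ ∑ x with (g x = c.1 ∧ cell x = some c.2), |y x| := Finset.abs_sum_le_sum_abs _ _
      _ ≤ ∑ x, |y x| := by
          apply Finset.sum_le_sum_of_subset_of_nonneg (Finset.subset_univ _)
          intro x _ _
          exact abs_nonneg _
      _ ≤ 1 := hy
  · intro r
    -- the prediction
    set F : X → ℝ := fun x => (#{i ∈ range J | near i r x} : ℝ) / J with hF
    set H : Γ → Fin J × Fin k → ℝ := fun γ c =>
      (#{i ∈ range J | (c.1 : ℕ) ≤ i ∧ Q j γ i r (ρ c.1 c.2)} : ℝ) / J with hH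
    set pred : X → ℝ := fun x => (cell x).elim 0 (H (g x)) with hpred
    have hFle : ∀ x, 0 ≤ F x ∧ F x ≤ 1 := by
      intro x
      refine ⟨by positivity, ?_⟩
      rw [hF]
      simp only
      rw [div_le_one hJ']
      have := Finset.card_filter_le (range J) (fun i => near i r x)
      rw [Finset.card_range] at this
      exact_mod_cast this
    have hHle : ∀ γ c, 0 ≤ H γ c ∧ H γ c ≤ 1 := by
      intro γ c
      refine ⟨by positivity, ?_⟩
      rw [hH]
      simp only
      rw [div_le_one hJ']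
      have := Finset.card_filter_le (range J) (fun i => (c.1 : ℕ) ≤ i ∧ Q j γ i r (ρ c.1 c.2))
      rw [Finset.card_range] at this
      exact_mod_cast this
    have hpredle : ∀ x, 0 ≤ pred x ∧ pred x ≤ 1 := by
      intro x
      rw [hpred]
      simp only
      cases hcx : cell x with
      | none => simp
      | some c => simpa using hHle (g x) c
    have hsum : ∑ c, w c * ((#{i ∈ range J | (c.2.1 : ℕ) ≤ i ∧ Q j c.1 i r (ρ c.2.1 c.2.2)} : ℝ) / J)
        = ∑ x, y x * pred x := by
      have h1 : ∀ c : Γ × Fin J × Fin k, w c * ((#{i ∈ range J | (c.2.1 : ℕ) ≤ i ∧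
          Q j c.1 i r (ρ c.2.1 c.2.2)} : ℝ) / J) =
          ∑ x, if (g x = c.1 ∧ cell x = some c.2) then y x * pred x else 0 := by
        intro c
        rw [hw]
        simp only
        rw [Finset.sum_mul, ← Finset.sum_filter]
        apply Finset.sum_congr rfl
        intro x hx
        simp only [mem_filter, mem_univ, true_and] at hx
        rw [hpred]
        simp only [hx.2, Option.elim_some, hH, hx.1]
      rw [Finset.sum_congr rfl (fun c _ => h1 c), Finset.sum_comm]
      apply Finset.sum_congr rfl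
      intro x _
      cases hcx : cell x with
      | none =>
        have : pred x = 0 := by
          rw [hpred]; simp only [hcx, Option.elim_none]
        rw [this]
        simp
      | some c =>
        rw [Finset.sum_eq_single (g x, c)]
        · simp
        · intro c' _ hne
          rw [if_neg]
          rintro ⟨h1, h2⟩
          apply hne
          simp only [Option.some.injEq] at h2
          rw [Prod.ext_iff]
          exact ⟨h1.symm, h2.symm⟩
        · intro h
          exact absurd (Finset.mem_univ _) h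
    rw [hsum, ← Finset.sum_sub_distrib]
    have hpt : ∀ x, |F x - pred x| ≤ 1 / J + (if bad j x then 1 else 0) +
        ∑ i : Fin J, (if (nearV j i (res j r) x ∧ ∀ l, ¬ nearV j i (ρ i l) x) then (1:ℝ) else 0) := by
      intro x
      have hle1 : |F x - pred x| ≤ 1 := by
        rw [abs_le]
        have := hFle x
        have := hpredle x
        constructor <;> linarith
      have h1J : (0:ℝ) ≤ 1 / J := by positivity
      have hs0 : ∀ i : Fin J, (0:ℝ) ≤ (if (nearV j i (res j r) x ∧ ∀ l, ¬ nearV j i (ρ i l) x)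
          then (1:ℝ) else 0) := by
        intro i
        split_ifs <;> norm_num
      have hs1 : (0:ℝ) ≤ ∑ i : Fin J, (if (nearV j i (res j r) x ∧ ∀ l, ¬ nearV j i (ρ i l) x)
          then (1:ℝ) else 0) := Finset.sum_nonneg (fun i _ => hs0 i)
      by_cases hbx : bad j x
      · rw [if_pos hbx]
        linarith
      · rw [if_neg hbx]
        by_cases hex : ∃ i : Fin J, nearV j i (res j r) x ∧ ∀ l, ¬ nearV j i (ρ i l) x
        · obtain ⟨i, hi⟩ := hex
          have : (1:ℝ) ≤ ∑ i : Fin J, (if (nearV j i (res j r) x ∧ ∀ l, ¬ nearV j i (ρ i l) x)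
              then (1:ℝ) else 0) := by
            have h2 := Finset.single_le_sum (fun i _ => hs0 i) (Finset.mem_univ i)
            rw [if_pos hi] at h2
            exact h2
          linarith
        · push Not at hex
          have hmain : |F x - pred x| ≤ 1 / J := by
            rw [hF, hpred]
            simp only
            cases hcx : cell x with
            | none =>
              have h0 := (hcell1 x hcx).resolve_left hbx
              have h3 : {i ∈ range J | near i r x} = (∅ : Finset ℕ) := by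
                rw [Finset.filter_eq_empty_iff]
                intro i hi hni
                have hi' := Finset.mem_range.1 hi
                obtain ⟨l, hl⟩ := hex ⟨i, hi'⟩ (ha j i r x hni)
                exact h0 _ _ hl
              rw [h3]
              simp
            | some c =>
              obtain ⟨i₀, l⟩ := c
              obtain ⟨-, hnV, hmin⟩ := hcell2 x i₀ l hcx
              simp only [Option.elim_some, hH]
              apply card_shift_abs (Finset.filter_subset _ _) (Finset.filter_subset _ _)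
              · intro i hi hi1
                simp only [mem_filter, mem_range] at hi ⊢
                have hV := ha j i r x hi.2
                obtain ⟨l', hl'⟩ := hex ⟨i, hi.1⟩ hV
                have hi0 := hmin _ _ hl'
                have hi0' : (i₀ : ℕ) ≤ i := hi0
                exact ⟨hi1, by omega, hb j i₀ i r _ x hbx hi0' hV hnV⟩
              · intro i hi hi1
                simp only [mem_filter, mem_range] at hi ⊢
                exact ⟨hi1, hc j i₀ i r _ x hbx hi.2.1 hi.2.2 hnV⟩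
          linarith
    calc |∑ x, (y x * F x - y x * pred x)| ≤ ∑ x, |y x * F x - y x * pred x| :=
          Finset.abs_sum_le_sum_abs _ _
      _ = ∑ x, |y x| * |F x - pred x| := by
          apply Finset.sum_congr rfl
          intro x _
          rw [← mul_sub, abs_mul]
      _ ≤ ∑ x, |y x| * (1 / J + (if bad j x then 1 else 0) +
        ∑ i : Fin J, (if (nearV j i (res j r) x ∧ ∀ l, ¬ nearV j i (ρ i l) x) then (1:ℝ) else 0)) := by
          apply Finset.sum_le_sum
          intro x _
          exact mul_le_mul_of_nonneg_left (hpt x) (abs_nonneg _)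
      _ = (∑ x, |y x|) * (1 / J) + ∑ x with bad j x, |y x| +
          ∑ i : Fin J, ∑ x with (nearV j i (res j r) x ∧ ∀ l, ¬ nearV j i (ρ i l) x), |y x| := by
          simp only [mul_add, Finset.sum_add_distrib, Finset.sum_mul, Finset.mul_sum]
          congr 1
          · congr 1
            rw [Finset.sum_filter]
            apply Finset.sum_congr rfl
            intro x _
            split_ifs <;> simp
          · rw [Finset.sum_comm]
            apply Finset.sum_congr rfl
            intro i _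
            rw [Finset.sum_filter]
            apply Finset.sum_congr rfl
            intro x _
            split_ifs <;> simp
      _ ≤ 1 * (1 / J) + 1 / J + ∑ i : Fin J, (1:ℝ) / k := by
          apply add_le_add
          · apply add_le_add _ hj
            apply mul_le_mul_of_nonneg_right hy
            positivity
          · apply Finset.sum_le_sum
            intro i _
            exact hρ i _
      _ ≤ 3 / J := by
          rw [Finset.sum_const, nsmul_eq_mul, Finset.card_univ, Fintype.card_fin]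
          have : (J:ℝ) * (1 / k) ≤ 1 / J := by
            rw [mul_one_div, div_le_div_iff₀ hk' hJ']
            rw [one_mul]
            exact_mod_cast hk
          have h3 : (3:ℝ) / J = 1 * (1 / J) + 1 / J + 1 / J := by ring
          rw [h3]
          linarith

end Crest.Agent.R071
end

-- ▼ part R071/Code
section

set_option autoImplicit false

namespace Crest.Agent.R071

open Finset

open Classical in
theorem exists_code {X Γ R P I : Type*} [Fintype X] [Fintype Γ] [Fintype I] [Nonempty I]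
    [Nonempty P] (J k D : ℕ) (hJ : 0 < J) (hk : J * J ≤ k) (hD0 : 0 < D)
    (hD : Fintype.card (Γ × Fin J × Fin k) * J ≤ D)
    (g : X → Γ) (bad : I → X → Prop) (near : ℕ → R → X → Prop)
    (nearV : I → ℕ → P → X → Prop)
    (res : I → R → P) (Q : I → Γ → ℕ → R → P → Prop)
    (hbad : ∀ x, J * #{j | bad j x} ≤ Fintype.card I)
    (ha : ∀ j i r x, near i r x → nearV j i (res j r) x)
    (hb : ∀ j i₀ i r ρ x, ¬ bad j x → i₀ ≤ i → nearV j i (res j r) x → nearV j i₀ ρ x →
      Q j (g x) (i+1) r ρ)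
    (hc : ∀ j i₀ i r ρ x, ¬ bad j x → i₀ ≤ i → Q j (g x) i r ρ → nearV j i₀ ρ x →
      near (i+1) r x) :
    ∃ code : (X → ℝ) → I × (Fin J → Fin k → P) ×
        (Γ × Fin J × Fin k → Finset.Icc (-(D:ℤ)) D),
      ∀ y y' : X → ℝ, ∑ x, |y x| ≤ 1 → ∑ x, |y' x| ≤ 1 → code y = code y' → ∀ r,
        |∑ x, y x * ((#{i ∈ range J | near i r x} : ℝ) / J) -
          ∑ x, y' x * ((#{i ∈ range J | near i r x} : ℝ) / J)| ≤ 7 / J := by
  have hJ' : (0:ℝ) < J := by exact_mod_cast hJ
  have hD' : (0:ℝ) < D := by exact_mod_cast hD0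
  have H := fun (y : X → ℝ) (hy : ∑ x, |y x| ≤ 1) =>
    exists_data J k hJ hk g bad near nearV res Q hbad ha hb hc y hy
  choose! jj ρρ ww hww hh using H
  have h0 : (0:ℤ) ∈ Finset.Icc (-(D:ℤ)) D := by
    rw [Finset.mem_Icc]
    omega
  set fl : ℝ → Finset.Icc (-(D:ℤ)) (D:ℤ) := fun t =>
    if h : ⌊(D:ℝ) * t⌋ ∈ Finset.Icc (-(D:ℤ)) D then ⟨_, h⟩ else ⟨0, h0⟩ with hfl
  have hfl1 : ∀ t t' : ℝ, |t| ≤ 1 → |t'| ≤ 1 → fl t = fl t' → |t - t'| ≤ 1 / D := by
    intro t t' ht ht' h
    have hmem : ∀ t : ℝ, |t| ≤ 1 → ⌊(D:ℝ) * t⌋ ∈ Finset.Icc (-(D:ℤ)) D := by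
      intro t ht
      rw [abs_le] at ht
      rw [Finset.mem_Icc]
      constructor
      · rw [Int.le_floor]
        push_cast
        nlinarith [ht.1]
      · rw [← Int.cast_le (R := ℝ)]
        refine (Int.floor_le _).trans ?_
        push_cast
        nlinarith [ht.2]
    rw [hfl] at h
    simp only [dif_pos (hmem t ht), dif_pos (hmem t' ht'), Subtype.mk.injEq] at h
    have h2 := Int.abs_sub_lt_one_of_floor_eq_floor h
    rw [← mul_sub, abs_mul, abs_of_pos hD'] at h2
    rw [le_div_iff₀ hD', mul_comm]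
    exact h2.le
  refine ⟨fun y => (jj y, ρρ y, fun c => fl (ww y c)), ?_⟩
  intro y y' hy hy' hcode r
  simp only [Prod.mk.injEq] at hcode
  obtain ⟨h1, h2, h3⟩ := hcode
  have e1 := hh y hy r
  have e2 := hh y' hy' r
  rw [← h1, ← h2] at e2
  have e3 : |∑ c, ww y c * ((#{i ∈ range J | (c.2.1 : ℕ) ≤ i ∧
        Q (jj y) c.1 i r (ρρ y c.2.1 c.2.2)} : ℝ) / J) -
      ∑ c, ww y' c * ((#{i ∈ range J | (c.2.1 : ℕ) ≤ i ∧
        Q (jj y) c.1 i r (ρρ y c.2.1 c.2.2)} : ℝ) / J)| ≤ 1 / J := by
    rw [← Finset.sum_sub_distrib]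
    calc |∑ c, (ww y c * ((#{i ∈ range J | (c.2.1 : ℕ) ≤ i ∧
        Q (jj y) c.1 i r (ρρ y c.2.1 c.2.2)} : ℝ) / J) - ww y' c * ((#{i ∈ range J |
        (c.2.1 : ℕ) ≤ i ∧ Q (jj y) c.1 i r (ρρ y c.2.1 c.2.2)} : ℝ) / J))|
        ≤ ∑ c, |(ww y c * ((#{i ∈ range J | (c.2.1 : ℕ) ≤ i ∧
        Q (jj y) c.1 i r (ρρ y c.2.1 c.2.2)} : ℝ) / J) - ww y' c * ((#{i ∈ range J |
        (c.2.1 : ℕ) ≤ i ∧ Q (jj y) c.1 i r (ρρ y c.2.1 c.2.2)} : ℝ) / J))| :=
          Finset.abs_sum_le_sum_abs _ _
      _ ≤ ∑ c : Γ × Fin J × Fin k, (1:ℝ) / D := by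
          apply Finset.sum_le_sum
          intro c _
          rw [← sub_mul, abs_mul]
          have hc1 : |ww y c - ww y' c| ≤ 1 / D :=
            hfl1 _ _ (hww y hy c) (hww y' hy' c) (congrFun h3 c)
          have hc2 : |((#{i ∈ range J | (c.2.1 : ℕ) ≤ i ∧
              Q (jj y) c.1 i r (ρρ y c.2.1 c.2.2)} : ℝ) / J)| ≤ 1 := by
            rw [abs_of_nonneg (by positivity), div_le_one hJ']
            have := Finset.card_filter_le (range J) (fun i => (c.2.1 : ℕ) ≤ i ∧
              Q (jj y) c.1 i r (ρρ y c.2.1 c.2.2))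
            rw [Finset.card_range] at this
            exact_mod_cast this
          calc _ ≤ (1:ℝ) / D * 1 := mul_le_mul hc1 hc2 (abs_nonneg _) (by positivity)
            _ = _ := mul_one _
      _ = (Fintype.card (Γ × Fin J × Fin k) : ℝ) * (1 / D) := by
          rw [Finset.sum_const, nsmul_eq_mul, Finset.card_univ]
      _ ≤ 1 / J := by
          rw [mul_one_div, div_le_div_iff₀ hD' hJ', one_mul]
          exact_mod_cast hD
  have h7 : (7:ℝ) / J = 3 / J + 1 / J + 3 / J := by ring
  rw [h7]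
  rw [abs_le] at e1 e2 e3 ⊢
  constructor <;> linarith [e1.1, e1.2, e2.1, e2.2, e3.1, e3.2]

end Crest.Agent.R071
end

-- ▼ part R071/Cyl
section

set_option autoImplicit false

namespace Crest.Agent.R071

open Finset

theorem cyl_step {L p : ℕ} [NeZero p] (B J' : Finset (Fin L)) (hd : Disjoint B J')
    (D : Finset (Fin L → Fin p))
    (hD : ∀ ω ω' : Fin L → Fin p, (∀ j ∈ B, ω j = ω' j) → ω ∈ D → ω' ∈ D) :
    #D ≤ #{ω ∈ D | ∀ j ∈ J', ω j = 0} * p ^ #J' := by
  classical
  have hcard : #({ω ∈ D | ∀ j ∈ J', ω j = 0} ×ˢ (Finset.univ : Finset (J' → Fin p)))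
      = #{ω ∈ D | ∀ j ∈ J', ω j = 0} * p ^ #J' := by
    rw [Finset.card_product, Finset.card_univ, Fintype.card_fun, Fintype.card_fin,
      Fintype.card_coe]
  rw [← hcard]
  apply Finset.card_le_card_of_injOn
    (fun ω => ((fun j => if j ∈ J' then (0 : Fin p) else ω j), fun j : J' => ω j))
  · intro ω hω
    rw [Finset.mem_coe] at hω ⊢
    rw [Finset.mem_product]
    refine ⟨?_, Finset.mem_univ _⟩
    simp only [Finset.mem_filter]
    refine ⟨hD ω _ ?_ hω, ?_⟩
    · intro j hj
      have : j ∉ J' := Finset.disjoint_left.1 hd hj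
      rw [if_neg this]
    · intro j hj
      rw [if_pos hj]
  · intro ω _ ω' _ h
    simp only [Prod.mk.injEq] at h
    obtain ⟨h1, h2⟩ := h
    funext j
    by_cases hj : j ∈ J'
    · exact congrFun h2 ⟨j, hj⟩
    · have := congrFun h1 j
      simpa [hj] using this

theorem cyl_iter {L p A : ℕ} [NeZero p] (E : Finset (Fin L → Fin p)) (ν : ℕ) :
    ∃ B : Finset (Fin L), #B ≤ A * ν ∧
      ((∀ J' : Finset (Fin L), Disjoint B J' → #J' ≤ A → ∃ ω, ω ∉ E ∧ ∀ j ∈ J', ω j = 0) ∨
      ∃ D : Finset (Fin L → Fin p),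
        (∀ ω ω' : Fin L → Fin p, (∀ j ∈ B, ω j = ω' j) → ω ∈ D → ω' ∈ D) ∧
        (∀ ω, ω ∉ E → ω ∈ D) ∧ (#D : ℝ) ≤ (1 - 1 / (p:ℝ) ^ A) ^ ν * (p:ℝ) ^ L) := by
  classical
  have hp1 : (1:ℝ) ≤ p := by exact_mod_cast NeZero.one_le
  have hp0 : (0:ℝ) < p := by linarith
  induction ν with
  | zero =>
    refine ⟨∅, by simp, Or.inr ⟨Finset.univ, fun _ _ _ _ => Finset.mem_univ _,
      fun _ _ => Finset.mem_univ _, ?_⟩⟩
    rw [Finset.card_univ, Fintype.card_fun, Fintype.card_fin, Fintype.card_fin]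
    simp
  | succ ν ih =>
    obtain ⟨B, hB, h⟩ := ih
    by_cases hgood : ∀ J' : Finset (Fin L), Disjoint B J' → #J' ≤ A →
        ∃ ω, ω ∉ E ∧ ∀ j ∈ J', ω j = 0
    · exact ⟨B, hB.trans (Nat.mul_le_mul_left _ (Nat.le_succ _)), Or.inl hgood⟩
    · obtain ⟨D, hD1, hD2, hD3⟩ := h.resolve_left hgood
      push Not at hgood
      obtain ⟨J', hJ1, hJ2, hJ3⟩ := hgood
      refine ⟨B ∪ J', ?_, Or.inr ⟨{ω ∈ D | ¬ ∀ j ∈ J', ω j = 0}, ?_, ?_, ?_⟩⟩
      · calc #(B ∪ J') ≤ #B + #J' := Finset.card_union_le _ _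
          _ ≤ A * ν + A := add_le_add hB hJ2
          _ = A * (ν + 1) := by ring
      · intro ω ω' hω hmem
        simp only [Finset.mem_filter] at hmem ⊢
        refine ⟨hD1 ω ω' (fun j hj => hω j (Finset.mem_union_left _ hj)) hmem.1, ?_⟩
        intro hcon
        apply hmem.2
        intro j hj
        rw [hω j (Finset.mem_union_right _ hj)]
        exact hcon j hj
      · intro ω hω
        simp only [Finset.mem_filter]
        refine ⟨hD2 ω hω, ?_⟩
        intro hcon
        obtain ⟨j, hj, hj2⟩ := hJ3 ω hω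
        exact hj2 (hcon j hj)
      · have h1 := cyl_step B J' hJ1 D hD1
        have h2 := Finset.card_filter_add_card_filter_not (s := D)
          (fun ω : Fin L → Fin p => ∀ j ∈ J', ω j = 0)
        have h1' : (#D : ℝ) ≤ #{ω ∈ D | ∀ j ∈ J', ω j = 0} * (p:ℝ) ^ #J' := by
          exact_mod_cast h1
        have h2' : (#{ω ∈ D | ∀ j ∈ J', ω j = 0} : ℝ) + #{ω ∈ D | ¬ ∀ j ∈ J', ω j = 0}
            = #D := by exact_mod_cast h2
        have hpow : (p:ℝ) ^ #J' ≤ (p:ℝ) ^ A := pow_le_pow_right₀ hp1 hJ2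
        have hpA : (0:ℝ) < (p:ℝ) ^ A := by positivity
        have h3 : (#D : ℝ) ≤ #{ω ∈ D | ∀ j ∈ J', ω j = 0} * (p:ℝ) ^ A :=
          h1'.trans (mul_le_mul_of_nonneg_left hpow (Nat.cast_nonneg _))
        have h4 : (#D : ℝ) / (p:ℝ) ^ A ≤ #{ω ∈ D | ∀ j ∈ J', ω j = 0} := by
          rw [div_le_iff₀ hpA]
          exact h3
        have h5 : (#{ω ∈ D | ¬ ∀ j ∈ J', ω j = 0} : ℝ) ≤ (1 - 1 / (p:ℝ) ^ A) * #D := by
          have : (1 - 1 / (p:ℝ) ^ A) * (#D:ℝ) = #D - (#D : ℝ) / (p:ℝ) ^ A := by ring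
          rw [this]
          linarith
        have h6 : 0 ≤ 1 - 1 / (p:ℝ) ^ A := by
          rw [sub_nonneg, div_le_one hpA]
          exact one_le_pow₀ hp1
        calc (#{ω ∈ D | ¬ ∀ j ∈ J', ω j = 0} : ℝ) ≤ (1 - 1 / (p:ℝ) ^ A) * #D := h5
          _ ≤ (1 - 1 / (p:ℝ) ^ A) * ((1 - 1 / (p:ℝ) ^ A) ^ ν * (p:ℝ) ^ L) :=
              mul_le_mul_of_nonneg_left hD3 h6
          _ = (1 - 1 / (p:ℝ) ^ A) ^ (ν + 1) * (p:ℝ) ^ L := by ring

/-- the separation lemma for cylinders -/
theorem exists_good {L p A ν J : ℕ} [NeZero p] (hν : (1 - 1 / (p:ℝ) ^ A) ^ ν < 1 / 2)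
    (hL : J * (A * ν) ≤ L) (E : Finset (Fin L → Fin p)) (hE : 2 * #E ≤ p ^ L) :
    ∃ G : Finset (Fin L), J * #Gᶜ ≤ L ∧
      ∀ J' : Finset (Fin L), J' ⊆ G → #J' ≤ A → ∃ ω, ω ∉ E ∧ ∀ j ∈ J', ω j = 0 := by
  classical
  obtain ⟨B, hB, h⟩ := cyl_iter (A := A) E ν
  refine ⟨Bᶜ, ?_, ?_⟩
  · rw [compl_compl]
    exact (Nat.mul_le_mul_left _ hB).trans hL
  · rcases h with h | ⟨D, -, hD2, hD3⟩
    · intro J' hJ' hcard
      apply h J' _ hcard
      rw [Finset.disjoint_left]
      intro j hj hj'
      exact Finset.mem_compl.1 (hJ' hj') hj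
    · exfalso
      have h1 : #Eᶜ ≤ #D := Finset.card_le_card (fun ω hω => hD2 ω (Finset.mem_compl.1 hω))
      have h2 : #E + #Eᶜ = p ^ L := by
        rw [Finset.card_add_card_compl, Fintype.card_fun, Fintype.card_fin, Fintype.card_fin]
      have h3 : p ^ L ≤ 2 * #D := by omega
      have h3' : (p:ℝ) ^ L ≤ 2 * #D := by exact_mod_cast h3
      have hp0 : (0:ℝ) < (p:ℝ) ^ L := by
        have : (0:ℝ) < p := by exact_mod_cast (NeZero.pos p)
        positivity
      nlinarith

end Crest.Agent.R071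
end

-- ▼ part R071/Wrap
section

set_option autoImplicit false
open Pointwise Crest.AnalysisR
open Crest Crest.AnalysisR

namespace Crest.Agent.R071

open Finset

theorem wrapper (a b : ℝ) (ha : 1 ≤ a) (hb : 1 ≤ b) {X R C : Type} [Fintype X] [Nonempty X]
    [Fintype R] [Nonempty R] [Fintype C]
    (F : R → X → ℝ)
    (hsep : ∀ r r', r ≠ r' → ∃ x, F r x = 1 ∧ F r' x = 0)
    (code : (X → ℝ) → C)
    (hcode : ∀ y y' : X → ℝ, ∑ x, |y x| ≤ 1 → ∑ x, |y' x| ≤ 1 → code y = code y' → ∀ r,
      |∑ x, y x * F r x - ∑ x, y' x * F r x| ≤ 1 / (6 * a))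
    (hlog : b * Real.log (Fintype.card C) < Real.log (Fintype.card R)) :
    ∃ n : ℕ, 0 < n ∧ ∃ K : Set (EuclideanSpace ℝ (Fin n)),
      Convex ℝ K ∧ IsCompact K ∧ (interior K).Nonempty ∧ (∀ x ∈ K, -x ∈ K) ∧
      ∃ t₁ : Finset (EuclideanSpace ℝ (Fin n)),
        polarSet {x : EuclideanSpace ℝ (Fin n) | ∀ i, |x i| ≤ 1} ⊆
          ⋃ y ∈ t₁, (y +ᵥ a⁻¹ • polarSet K) ∧
        ∀ t₂ : Finset (EuclideanSpace ℝ (Fin n)),
          K ⊆ ⋃ x ∈ t₂, (x +ᵥ {z : EuclideanSpace ℝ (Fin n) | ∀ i, |z i| ≤ 1}) →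
          b * Real.log t₁.card < Real.log t₂.card := by
  classical
  have ha0 : 0 < a := by linarith
  have hb0 : 0 < b := by linarith
  let n := Fintype.card X
  let e : Fin n ≃ X := (Fintype.equivFin X).symm
  let E := EuclideanSpace ℝ (Fin n)
  let v : R → EuclideanSpace ℝ (Fin n) := fun r => WithLp.toLp 2 (fun i => 3 * F r (e i))
  have hvi : ∀ r i, v r i = 3 * F r (e i) := fun r i => rfl
  let S : Set (EuclideanSpace ℝ (Fin n)) := Set.range v ∪ -Set.range v
  have hSfin : S.Finite := (Set.finite_range v).union (Set.finite_range v).neg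
  have hSneg : -S = S := by
    simp only [S, Set.union_neg, neg_neg]
    rw [Set.union_comm]
  let K : Set (EuclideanSpace ℝ (Fin n)) := convexHull ℝ S + Metric.closedBall 0 (1 / (4 * a))
  have hvS : ∀ r, v r ∈ convexHull ℝ S := fun r =>
    subset_convexHull ℝ S (Or.inl ⟨r, rfl⟩)
  refine ⟨n, Fintype.card_pos, K, ?_, ?_, ?_, ?_, ?_⟩
  · exact (convex_convexHull ℝ S).add (convex_closedBall _ _)
  · exact (Set.Finite.isCompact_convexHull ℝ hSfin).add (isCompact_closedBall _ _)
  · obtain ⟨r⟩ := ‹Nonempty R›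
    refine ⟨v r, mem_interior.2 ⟨Metric.ball (v r) (1 / (4 * a)), ?_, Metric.isOpen_ball,
      Metric.mem_ball_self (by positivity)⟩⟩
    intro z hz
    refine Set.mem_add.2 ⟨v r, hvS r, z - v r, ?_, by abel⟩
    rw [mem_closedBall_zero_iff]
    rw [Metric.mem_ball, dist_eq_norm] at hz
    exact hz.le
  · rintro x hx
    obtain ⟨h, hh, u, hu, rfl⟩ := Set.mem_add.1 hx
    refine Set.mem_add.2 ⟨-h, ?_, -u, ?_, by abel⟩
    · rw [← hSneg, convexHull_neg, Set.mem_neg, neg_neg]
      exact hh
    · simpa using hu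
  · -- polar of the cube
    have hpol : ∀ y ∈ polarSet {x : EuclideanSpace ℝ (Fin n) | ∀ i, |x i| ≤ 1},
        ∑ i, |y i| ≤ 1 := by
      intro y hy
      have h := hy (WithLp.toLp 2 (fun i => SignType.sign (y i) : Fin n → ℝ)) ?_
      · rw [PiLp.inner_apply] at h
        refine le_trans (le_of_eq ?_) h
        apply Finset.sum_congr rfl
        intro i _
        simp only [RCLike.inner_apply, conj_trivial]
        rw [self_mul_sign]
      · intro i
        change |((SignType.sign (y i) : SignType) : ℝ)| ≤ 1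
        rcases lt_trichotomy (y i) 0 with h | h | h
        · rw [sign_neg h]; simp
        · rw [h]; simp
        · rw [sign_pos h]; simp
    have hpol2 : ∀ y ∈ polarSet {x : EuclideanSpace ℝ (Fin n) | ∀ i, |x i| ≤ 1}, ‖y‖ ≤ 1 := by
      intro y hy
      have h1 := hpol y hy
      have h2 : ∀ i, |y i| ≤ 1 := fun i =>
        (Finset.single_le_sum (fun i _ => abs_nonneg (y i)) (Finset.mem_univ i)).trans h1
      have h3 := hy y h2
      rw [real_inner_self_eq_norm_sq] at h3
      have h4 := norm_nonneg y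
      nlinarith
    let cd : EuclideanSpace ℝ (Fin n) → C := fun y => code (fun x => y (e.symm x))
    let rep : C → EuclideanSpace ℝ (Fin n) := fun c =>
      if h : ∃ y ∈ polarSet {x : EuclideanSpace ℝ (Fin n) | ∀ i, |x i| ≤ 1}, cd y = c then
        h.choose else 0
    refine ⟨Finset.univ.image rep, ?_, ?_⟩
    · intro y hy
      simp only [Finset.mem_image, Finset.mem_univ, true_and, Set.iUnion_exists,
        Set.iUnion_iUnion_eq', Set.mem_iUnion]
      refine ⟨cd y, ?_⟩
      have hex : ∃ z ∈ polarSet {x : EuclideanSpace ℝ (Fin n) | ∀ i, |x i| ≤ 1}, cd z = cd y :=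
        ⟨y, hy, rfl⟩
      have hrep : rep (cd y) = hex.choose := by
        simp only [rep]
        rw [dif_pos hex]
      obtain ⟨hz1, hz2⟩ := hex.choose_spec
      rw [← hrep] at hz1 hz2
      set z := rep (cd y) with hz
      refine Set.mem_vadd_set.2 ⟨y - z, ?_, by simp [vadd_eq_add]⟩
      refine Set.mem_smul_set.2 ⟨a • (y - z), ?_, ?_⟩
      · -- in the polar of K
        intro k hk
        obtain ⟨h, hh, u, hu, rfl⟩ := Set.mem_add.1 hk
        rw [inner_add_left]
        have p1 : inner ℝ h (a • (y - z)) ≤ 1 / 2 := by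
          have hsub : convexHull ℝ S ⊆ {h | inner ℝ h (a • (y - z)) ≤ 1 / 2} := by
            apply convexHull_min
            · have key : ∀ r, |inner ℝ (v r) (a • (y - z))| ≤ 1 / 2 := by
                intro r
                have hcode' := hcode (fun x => y (e.symm x)) (fun x => z (e.symm x)) ?_ ?_
                  hz2.symm r
                · have hin : inner ℝ (v r) (a • (y - z)) = 3 * a *
                      (∑ x, y (e.symm x) * F r x - ∑ x, z (e.symm x) * F r x) := by
                    rw [PiLp.inner_apply, ← Finset.sum_sub_distrib, Finset.mul_sum]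
                    rw [← Equiv.sum_comp e]
                    apply Finset.sum_congr rfl
                    intro i _
                    simp only [RCLike.inner_apply, conj_trivial, Equiv.symm_apply_apply, hvi,
                      PiLp.smul_apply, PiLp.sub_apply, smul_eq_mul]
                    ring
                  rw [hin, abs_mul, abs_of_pos (by positivity : (0:ℝ) < 3 * a)]
                  calc 3 * a * |∑ x, y (e.symm x) * F r x - ∑ x, z (e.symm x) * F r x|
                      ≤ 3 * a * (1 / (6 * a)) := by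
                        apply mul_le_mul_of_nonneg_left hcode'
                        positivity
                    _ = 1 / 2 := by field_simp; norm_num
                · rw [Equiv.sum_comp e.symm (fun i => |y i|)]
                  exact hpol y hy
                · rw [Equiv.sum_comp e.symm (fun i => |z i|)]
                  exact hpol z hz1
              rintro h (⟨r, rfl⟩ | hr)
              · exact (le_abs_self _).trans (key r)
              · obtain ⟨r, hr⟩ := hr
                have : h = - v r := by rw [hr, neg_neg]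
                rw [this]
                change inner ℝ (-v r) (a • (y - z)) ≤ 1 / 2
                rw [inner_neg_left]
                exact (neg_le_abs _).trans (key r)
            · intro p hp q hq s t hs ht hst
              simp only [Set.mem_ofPred_eq] at hp hq ⊢
              rw [inner_add_left, real_inner_smul_left, real_inner_smul_left]
              nlinarith
          exact hsub hh
        have p2 : inner ℝ u (a • (y - z)) ≤ 1 / 2 := by
          rw [mem_closedBall_zero_iff] at hu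
          have h1 := real_inner_le_norm u (a • (y - z))
          rw [norm_smul, Real.norm_of_nonneg ha0.le] at h1
          have h2 : ‖y - z‖ ≤ 2 := by
            have := norm_sub_le y z
            have := hpol2 y hy
            have := hpol2 z hz1
            linarith
          calc inner ℝ u (a • (y - z)) ≤ ‖u‖ * (a * ‖y - z‖) := h1
            _ ≤ (1 / (4 * a)) * (a * 2) := by
                apply mul_le_mul hu _ (by positivity) (by positivity)
                apply mul_le_mul_of_nonneg_left h2 ha0.le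
            _ = 1 / 2 := by field_simp; norm_num
        linarith
      · rw [smul_smul, inv_mul_cancel₀ ha0.ne', one_smul]
    · intro t₂ ht₂
      have hmem : ∀ r, ∃ x ∈ t₂, ∀ i, |v r i - x i| ≤ 1 := by
        intro r
        have hvK : v r ∈ K := Set.mem_add.2 ⟨v r, hvS r, 0, by
          rw [mem_closedBall_zero_iff, norm_zero]; positivity, add_zero _⟩
        have h := ht₂ hvK
        simp only [Set.mem_iUnion] at h
        obtain ⟨x, hx, hx2⟩ := h
        obtain ⟨w, hw, hw2⟩ := Set.mem_vadd_set.1 hx2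
        refine ⟨x, hx, fun i => ?_⟩
        rw [← hw2, vadd_eq_add]
        have : (x + w) i - x i = w i := by simp
        rw [this]
        exact hw i
      choose p hp1 hp2 using hmem
      have hinj : Function.Injective p := by
        intro r r' hrr
        by_contra hne
        obtain ⟨x, hx1, hx2⟩ := hsep r r' hne
        have h1 := hp2 r (e.symm x)
        have h2 := hp2 r' (e.symm x)
        rw [hvi, Equiv.apply_symm_apply, hx1, hrr] at h1
        rw [hvi, Equiv.apply_symm_apply, hx2] at h2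
        rw [abs_le] at h1 h2
        linarith [h1.1, h1.2, h2.1, h2.2]
      have hcard : Fintype.card R ≤ t₂.card := by
        rw [← Finset.card_univ]
        exact Finset.card_le_card_of_injOn p (fun r _ => hp1 r) (hinj.injOn)
      have hR : (0:ℝ) < Fintype.card R := by exact_mod_cast Fintype.card_pos
      have hC : (0:ℝ) < (Finset.univ.image rep).card := by
        have : (Finset.univ.image rep).Nonempty := by
          refine ⟨rep (cd 0), Finset.mem_image_of_mem _ (Finset.mem_univ _)⟩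
        exact_mod_cast this.card_pos
      calc b * Real.log ((Finset.univ.image rep).card) ≤ b * Real.log (Fintype.card C) := by
            apply mul_le_mul_of_nonneg_left _ hb0.le
            apply Real.log_le_log hC
            exact_mod_cast Finset.card_image_le
        _ < Real.log (Fintype.card R) := hlog
        _ ≤ Real.log t₂.card := by
            apply Real.log_le_log hR
            exact_mod_cast hcard

end Crest.Agent.R071
end

-- ▼ part R071/Main

set_option autoImplicit false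
open Pointwise Crest.AnalysisR
open Crest Crest.AnalysisR

namespace Crest.Agent.R071

open Finset

/-- the radii -/
def rad (i : ℕ) : ℕ := 2 ^ i - 1

theorem rad_add (i₀ i : ℕ) (h : i₀ ≤ i) : rad i + rad i₀ + 1 ≤ rad (i + 1) := by
  have h1 : 2 ^ i₀ ≤ 2 ^ i := Nat.pow_le_pow_right (by norm_num) h
  have h2 : 1 ≤ 2 ^ i₀ := Nat.one_le_two_pow
  have h3 : 2 ^ (i + 1) = 2 * 2 ^ i := by ring
  unfold rad
  omega

theorem rad_mono {i k : ℕ} (h : i ≤ k) : rad i ≤ rad k := by
  have h1 : 2 ^ i ≤ 2 ^ k := Nat.pow_le_pow_right (by norm_num) h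
  unfold rad
  omega

/-- insertion of a zero coordinate -/
def ins {m p : ℕ} [NeZero p] (j : Fin (m + 1)) (v : Fin m → Fin p) : Fin (m + 1) → Fin p :=
  j.insertNth (α := fun _ => Fin p) 0 v


theorem exists_ins {m p : ℕ} [NeZero p] (j : Fin (m + 1)) (ω : Fin (m + 1) → Fin p)
    (h : ω j = 0) : ∃ v, ins j v = ω := by
  refine ⟨j.removeNth ω, ?_⟩
  unfold ins
  rw [← h]
  exact Fin.insertNth_self_removeNth j ω

section near

variable {m p : ℕ} [NeZero p] {K : Type}

/-- `r = z` on a cylinder of codimension at most `s` with fixed coordinates in `G`. -/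
def Near (G : Finset (Fin (m + 1))) (s : ℕ) (r z : (Fin (m + 1) → Fin p) → K) : Prop :=
  ∃ J' ⊆ G, #J' ≤ s ∧ ∀ ω, (∀ j ∈ J', ω j = 0) → r ω = z ω

/-- localized version -/
def NearV (j₀ : Fin (m + 1)) (G : Finset (Fin (m + 1))) (s : ℕ)
    (ρ : (Fin m → Fin p) → K) (z : (Fin (m + 1) → Fin p) → K) : Prop :=
  ∃ J' ⊆ G, #J' ≤ s ∧ ∀ v, (∀ j ∈ J', ins j₀ v j = 0) → ρ v = z (ins j₀ v)

theorem near_nearV (j₀ : Fin (m + 1)) (G : Finset (Fin (m + 1))) (s : ℕ)
    (r z : (Fin (m + 1) → Fin p) → K) (h : Near G s r z) :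
    NearV j₀ G s (fun v => r (ins j₀ v)) z := by
  obtain ⟨J', h1, h2, h3⟩ := h
  exact ⟨J', h1, h2, fun v hv => h3 _ hv⟩

/-- localized version, Q -/
def NearQ (j₀ : Fin (m + 1)) (G : Finset (Fin (m + 1))) (s : ℕ)
    (r : (Fin (m + 1) → Fin p) → K) (ρ : (Fin m → Fin p) → K) : Prop :=
  ∃ J' ⊆ G, #J' ≤ s ∧ ∀ v, (∀ j ∈ J', ins j₀ v j = 0) → r (ins j₀ v) = ρ v

theorem nearQ_of (j₀ : Fin (m + 1)) (G : Finset (Fin (m + 1))) (s s' s'' : ℕ)
    (r z : (Fin (m + 1) → Fin p) → K) (ρ : (Fin m → Fin p) → K)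
    (hs : s + s' ≤ s'')
    (h : NearV j₀ G s (fun v => r (ins j₀ v)) z) (h' : NearV j₀ G s' ρ z) :
    NearQ j₀ G s'' r ρ := by
  classical
  obtain ⟨J1, a1, a2, a3⟩ := h
  obtain ⟨J2, b1, b2, b3⟩ := h'
  refine ⟨J1 ∪ J2, Finset.union_subset a1 b1, ?_, ?_⟩
  · have := Finset.card_union_le J1 J2
    omega
  · intro v hv
    have e1 := a3 v (fun j hj => hv j (Finset.mem_union_left _ hj))
    have e2 := b3 v (fun j hj => hv j (Finset.mem_union_right _ hj))
    simp only at e1
    rw [e1, e2]

theorem near_of (j₀ : Fin (m + 1)) (G : Finset (Fin (m + 1))) (s s' s'' : ℕ)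
    (r z : (Fin (m + 1) → Fin p) → K) (ρ : (Fin m → Fin p) → K) (hj : j₀ ∈ G)
    (hs : s + s' + 1 ≤ s'')
    (h : NearQ j₀ G s r ρ) (h' : NearV j₀ G s' ρ z) :
    Near G s'' r z := by
  classical
  obtain ⟨J1, a1, a2, a3⟩ := h
  obtain ⟨J2, b1, b2, b3⟩ := h'
  refine ⟨insert j₀ (J1 ∪ J2), Finset.insert_subset hj (Finset.union_subset a1 b1), ?_, ?_⟩
  · have := Finset.card_union_le J1 J2
    have := Finset.card_insert_le j₀ (J1 ∪ J2)
    omega
  · intro ω hω
    obtain ⟨v, rfl⟩ := exists_ins j₀ ω (hω j₀ (Finset.mem_insert_self _ _))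
    have e1 := a3 v (fun j hj => hω j (Finset.mem_insert_of_mem (Finset.mem_union_left _ hj)))
    have e2 := b3 v (fun j hj => hω j (Finset.mem_insert_of_mem (Finset.mem_union_right _ hj)))
    rw [e1, e2]

end near

open Classical in
/-- The construction, with all parameters given. -/
theorem construction (a b : ℝ) (ha : 1 ≤ a) (hb : 1 ≤ b) (J p m ν : ℕ) [NeZero p]
    (hJ : 0 < J) (hJa : 42 * a ≤ J)
    (hν : (1 - 1 / (p:ℝ) ^ (rad (J - 1))) ^ ν < 1 / 2)
    (hL : J * (rad (J - 1) * ν) ≤ m + 1)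
    (K : Type) [Fintype K] [Nonempty K] (R : Type) [Fintype R] [Nonempty R]
    (ev : R → ((Fin (m + 1) → Fin p) → K))
    (hev : ∀ r r', r ≠ r' → 2 * #{ω | ev r ω = ev r' ω} ≤ p ^ (m + 1))
    (D : ℕ) (hD0 : 0 < D)
    (hD : 2 ^ (m + 1) * J * (J * J) * J ≤ D)
    (hlog : b * Real.log ((m + 1) * (Fintype.card K : ℝ) ^ (p ^ m * (J * (J * J))) *
      (2 * D + 1) ^ (2 ^ (m + 1) * J * (J * J))) < Real.log (Fintype.card R)) :
    ∃ n : ℕ, 0 < n ∧ ∃ K : Set (EuclideanSpace ℝ (Fin n)),
      Convex ℝ K ∧ IsCompact K ∧ (interior K).Nonempty ∧ (∀ x ∈ K, -x ∈ K) ∧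
      ∃ t₁ : Finset (EuclideanSpace ℝ (Fin n)),
        polarSet {x : EuclideanSpace ℝ (Fin n) | ∀ i, |x i| ≤ 1} ⊆
          ⋃ y ∈ t₁, (y +ᵥ a⁻¹ • polarSet K) ∧
        ∀ t₂ : Finset (EuclideanSpace ℝ (Fin n)),
          K ⊆ ⋃ x ∈ t₂, (x +ᵥ {z : EuclideanSpace ℝ (Fin n) | ∀ i, |z i| ≤ 1}) →
          b * Real.log t₁.card < Real.log t₂.card := by
  have ha0 : 0 < a := by linarith
  have hb0 : 0 < b := by linarith
  have hJ' : (0:ℝ) < J := by exact_mod_cast hJ
  let Γ := {G : Finset (Fin (m + 1)) // J * #Gᶜ ≤ m + 1}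
  let X := Γ × R
  let near : ℕ → R → X → Prop := fun i r x => Near x.1.1 (rad i) (ev r) (ev x.2)
  let F : R → X → ℝ := fun r x => (#{i ∈ range J | near i r x} : ℝ) / J
  have hΓne : Nonempty Γ := ⟨⟨Finset.univ, by simp⟩⟩
  have hΓcard : Fintype.card Γ ≤ 2 ^ (m + 1) := by
    calc Fintype.card Γ ≤ Fintype.card (Finset (Fin (m + 1))) := Fintype.card_subtype_le _
      _ = 2 ^ (m + 1) := by rw [Fintype.card_finset, Fintype.card_fin]
  have hcellcard : Fintype.card (Γ × Fin J × Fin (J * J)) ≤ 2 ^ (m + 1) * J * (J * J) := by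
    rw [Fintype.card_prod, Fintype.card_prod, Fintype.card_fin, Fintype.card_fin, ← mul_assoc]
    apply Nat.mul_le_mul_right
    apply Nat.mul_le_mul_right
    exact hΓcard
  obtain ⟨code, hcode⟩ := exists_code (X := X) (Γ := Γ) (R := R) (P := (Fin m → Fin p) → K)
    (I := Fin (m + 1)) J (J * J) D hJ le_rfl hD0
    ((Nat.mul_le_mul_right _ hcellcard).trans hD)
    (fun x => x.1) (fun j x => j ∉ x.1.1) near
    (fun j i ρ x => NearV j x.1.1 (rad i) ρ (ev x.2))
    (fun j r v => ev r (ins j v))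
    (fun j G i r ρ => NearQ j G.1 (rad i) (ev r) ρ)
    (by
      intro x
      have h := x.1.2
      rw [Fintype.card_fin]
      refine le_trans (le_of_eq ?_) h
      congr 2
      ext j
      simp)
    (by
      intro j i r x h
      exact near_nearV j _ _ _ _ h)
    (by
      intro j i₀ i r ρ x _ hi h1 h2
      have := rad_add i₀ i hi
      exact nearQ_of j _ (rad i) (rad i₀) _ _ _ _ (by omega) h1 h2)
    (by
      intro j i₀ i r ρ x hx hi h1 h2
      have := rad_add i₀ i hi
      exact near_of j _ (rad i) (rad i₀) _ _ _ _ (not_not.1 hx) (by omega) h1 h2)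
  refine wrapper a b ha hb F ?_ code ?_ ?_
  · intro r r' hrr
    obtain ⟨G, hG1, hG2⟩ := exists_good hν hL {ω | ev r' ω = ev r ω} (hev r' r hrr.symm)
    refine ⟨(⟨G, hG1⟩, r), ?_, ?_⟩
    · have : {i ∈ range J | near i r (⟨G, hG1⟩, r)} = range J := by
        rw [Finset.filter_eq_self]
        intro i _
        exact ⟨∅, Finset.empty_subset _, by simp, fun _ _ => rfl⟩
      simp only [F]
      rw [this, Finset.card_range]
      field_simp
    · have : {i ∈ range J | near i r' (⟨G, hG1⟩, r)} = ∅ := by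
        rw [Finset.filter_eq_empty_iff]
        rintro i hi ⟨J', h1, h2, h3⟩
        have hi' := Finset.mem_range.1 hi
        obtain ⟨ω, hω1, hω2⟩ := hG2 J' h1 (h2.trans (rad_mono (by omega)))
        apply hω1
        simp only [Finset.mem_filter, Finset.mem_univ, true_and]
        exact h3 ω hω2
      simp only [F]
      rw [this]
      simp
  · intro y y' hy hy' hc r
    refine (hcode y y' hy hy' hc r).trans ?_
    rw [div_le_div_iff₀ hJ' (by positivity)]
    linarith
  · refine lt_of_le_of_lt ?_ hlog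
    apply mul_le_mul_of_nonneg_left _ hb0.le
    apply Real.log_le_log
    · have : Nonempty (Fin (m + 1) × (Fin J → Fin (J * J) → (Fin m → Fin p) → K) ×
        (Γ × Fin J × Fin (J * J) → Finset.Icc (-(D:ℤ)) D)) := ⟨code 0⟩
      exact_mod_cast Fintype.card_pos
    · have hIcc : Fintype.card (Finset.Icc (-(D:ℤ)) (D:ℤ)) = 2 * D + 1 := by
        rw [Fintype.card_coe, Int.card_Icc]
        omega
      rw [Fintype.card_prod, Fintype.card_prod, Fintype.card_fin, Fintype.card_fun,
        Fintype.card_fun, Fintype.card_fun, Fintype.card_fun, Fintype.card_fun, Fintype.card_fin,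
        Fintype.card_fin, Fintype.card_fin, Fintype.card_fin, hIcc]
      push_cast
      rw [← mul_assoc]
      apply mul_le_mul
      · apply le_of_eq
        congr 1
        rw [← pow_mul, ← pow_mul]
        congr 1
        ring
      · apply pow_le_pow_right₀
        · have : (0:ℝ) ≤ D := Nat.cast_nonneg D
          linarith
        · exact hcellcard
      · positivity
      · positivity

/-- Reed-Solomon evaluation. -/
theorem exists_code_RS (q d : ℕ) [Fact q.Prime] (Ω : Type) [Fintype Ω] [DecidableEq Ω]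
    (hq : Fintype.card Ω ≤ q) :
    ∃ ev : (Fin d → ZMod q) → (Ω → ZMod q), ∀ r r', r ≠ r' →
      #{ω | ev r ω = ev r' ω} < d := by
  classical
  have hcard : Fintype.card Ω ≤ Fintype.card (ZMod q) := by rwa [ZMod.card]
  obtain ⟨ι⟩ := Function.Embedding.nonempty_of_card_le hcard
  refine ⟨fun r ω => ((Polynomial.degreeLTEquiv (ZMod q) d).symm r : Polynomial (ZMod q)).eval
    (ι ω), ?_⟩
  intro r r' hrr
  by_contra hcon
  push Not at hcon
  apply hrr
  apply (Polynomial.degreeLTEquiv (ZMod q) d).symm.injective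
  apply Subtype.ext
  have hdeg : ∀ r : Fin d → ZMod q,
      ((Polynomial.degreeLTEquiv (ZMod q) d).symm r : Polynomial (ZMod q)).degree < d := fun r =>
    Polynomial.mem_degreeLT.1 ((Polynomial.degreeLTEquiv (ZMod q) d).symm r).2
  apply Polynomial.eq_of_degrees_lt_of_eval_index_eq
    {ω | ((Polynomial.degreeLTEquiv (ZMod q) d).symm r : Polynomial (ZMod q)).eval (ι ω) =
      ((Polynomial.degreeLTEquiv (ZMod q) d).symm r' : Polynomial (ZMod q)).eval (ι ω)}
    (ι.injective.injOn)
  · exact lt_of_lt_of_le (hdeg r) (by exact_mod_cast hcon)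
  · exact lt_of_lt_of_le (hdeg r') (by exact_mod_cast hcon)
  · intro ω hω
    simpa using hω

theorem main (a b : ℝ) (ha : 1 ≤ a) (hb : 1 ≤ b) :
    ∃ n : ℕ, 0 < n ∧ ∃ K : Set (EuclideanSpace ℝ (Fin n)),
      Convex ℝ K ∧ IsCompact K ∧ (interior K).Nonempty ∧ (∀ x ∈ K, -x ∈ K) ∧
      ∃ t₁ : Finset (EuclideanSpace ℝ (Fin n)),
        polarSet {x : EuclideanSpace ℝ (Fin n) | ∀ i, |x i| ≤ 1} ⊆
          ⋃ y ∈ t₁, (y +ᵥ a⁻¹ • polarSet K) ∧
        ∀ t₂ : Finset (EuclideanSpace ℝ (Fin n)),
          K ⊆ ⋃ x ∈ t₂, (x +ᵥ {z : EuclideanSpace ℝ (Fin n) | ∀ i, |z i| ≤ 1}) →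
          b * Real.log t₁.card < Real.log t₂.card := by
  have ha0 : 0 < a := by linarith
  have hb0 : 0 < b := by linarith
  -- J
  obtain ⟨J, hJa⟩ := exists_nat_ge (42 * a)
  have hJ' : (0:ℝ) < J := by linarith
  have hJ : 0 < J := by exact_mod_cast hJ'
  -- p
  obtain ⟨p', hp'⟩ := exists_nat_ge (b * (J * (J * J)) + 1)
  have hp'1 : (1:ℝ) ≤ p' := by
    have : (0:ℝ) ≤ b * (J * (J * J)) := by positivity
    linarith
  have hp'0 : 0 < p' := by
    have : (0:ℝ) < p' := by linarith
    exact_mod_cast this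
  set p := 2 * p' with hp
  have : NeZero p := ⟨by omega⟩
  have hpr : (0:ℝ) < p := by
    have : 0 < p := by omega
    exact_mod_cast this
  have hpr1 : (1:ℝ) ≤ p := by
    have : 1 ≤ p := by omega
    exact_mod_cast this
  -- ν
  obtain ⟨ν, hν⟩ : ∃ ν : ℕ, (1 - 1 / (p:ℝ) ^ (rad (J - 1))) ^ ν < 1 / 2 := by
    apply exists_pow_lt_of_lt_one (by norm_num)
    have : (0:ℝ) < 1 / (p:ℝ) ^ (rad (J - 1)) := by positivity
    linarith
  -- m
  set m := J * (rad (J - 1) * ν) with hm
  -- D
  set D := 2 ^ (m + 1) * J * (J * J) * J with hD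
  have hD0 : 0 < D := by positivity
  -- q
  set c : ℝ := (m + 1) * (2 * D + 1) ^ (2 ^ (m + 1) * J * (J * J)) with hc
  have hc0 : 0 < c := by positivity
  obtain ⟨N, hN⟩ := exists_nat_gt (Real.exp (b * Real.log c))
  obtain ⟨q, hq1, hq2⟩ := Nat.exists_infinite_primes (N + p ^ (m + 1))
  have : Fact q.Prime := ⟨hq2⟩
  have hqpos : (0:ℝ) < q := by exact_mod_cast hq2.pos
  have hqlog : b * Real.log c < Real.log q := by
    rw [Real.lt_log_iff_exp_lt hqpos]
    refine hN.trans_le ?_
    have : N ≤ q := by omega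
    exact_mod_cast this
  have hqlog0 : 0 ≤ Real.log q := Real.log_natCast_nonneg q
  -- d
  set d := p' * p ^ m with hd
  have h2d : 2 * d = p ^ (m + 1) := by
    rw [hd, hp]
    ring
  obtain ⟨ev, hev⟩ := exists_code_RS q d (Fin (m + 1) → Fin p) (by
    rw [Fintype.card_fun, Fintype.card_fin, Fintype.card_fin]
    omega)
  refine construction a b ha hb J p m ν hJ hJa hν (by omega) (ZMod q) (Fin d → ZMod q) ev ?_ D
    hD0 le_rfl ?_
  · intro r r' hrr
    have h := (hev r r' hrr).le
    rw [← h2d]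
    apply Nat.mul_le_mul_left
    refine le_trans (le_of_eq ?_) h
    congr
  · rw [Fintype.card_fun, Fintype.card_fin, ZMod.card]
    push_cast
    have e1 : ((m:ℝ) + 1) * (q:ℝ) ^ (p ^ m * (J * (J * J))) *
      (2 * D + 1) ^ (2 ^ (m + 1) * J * (J * J)) = c * (q:ℝ) ^ (p ^ m * (J * (J * J))) := by
      rw [hc]; ring
    rw [e1, Real.log_mul hc0.ne' (by positivity), Real.log_pow, Real.log_pow]
    push_cast
    have hpm : (1:ℝ) ≤ (p:ℝ) ^ m := one_le_pow₀ hpr1
    have hdr : (d:ℝ) = p' * (p:ℝ) ^ m := by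
      rw [hd]; push_cast; ring
    have h3 : b * ((p:ℝ) ^ m * (J * (J * J))) + 1 ≤ d := by
      rw [hdr]
      calc b * ((p:ℝ) ^ m * (J * (J * J))) + 1 ≤ b * ((p:ℝ) ^ m * (J * (J * J))) + (p:ℝ) ^ m := by
            linarith
        _ = (b * (J * (J * J)) + 1) * (p:ℝ) ^ m := by ring
        _ ≤ p' * (p:ℝ) ^ m := mul_le_mul_of_nonneg_right hp' (by positivity)
    have h4 := mul_le_mul_of_nonneg_right h3 hqlog0
    have h5 : b * (Real.log c + (p:ℝ) ^ m * (J * (J * J)) * Real.log q) =
      b * Real.log c + b * ((p:ℝ) ^ m * (J * (J * J))) * Real.log q := by ring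
    rw [h5]
    linarith

end Crest.Agent.R071
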